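import Vale.Agent.P204.Main
import Vale.Agent.P204.Bridge

/-!
On the four-torus, an almost complex structure which does not depend on one of the coordinates
and is tamed by a symplectic form is compatible with a symplectic form.
-/

open scoped ContDiff Matrix

namespace Vale.Agent.Results.P204.CircleInvariant

theorem result
    (J : (Fin 4 → ℝ) → Matrix (Fin 4) (Fin 4) ℝ)
    (hJsmooth : ∀ i j, ContDiff ℝ ∞ fun x => J x i j)
    (hJperiodic : ∀ x (m : Fin 4 → ℤ), J (fun i => x i + m i) = J x)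
    (hJsq : ∀ x, J x * J x = -1)
    (hJinvariant : ∀ x (c : ℝ), J (x + Pi.single 3 c) = J x)
    (Ω : (Fin 4 → ℝ) → Matrix (Fin 4) (Fin 4) ℝ)
    (hΩsmooth : ∀ i j, ContDiff ℝ ∞ fun x => Ω x i j)
    (hΩperiodic : ∀ x (m : Fin 4 → ℤ), Ω (fun i => x i + m i) = Ω x)
    (hΩskew : ∀ x, (Ω x)ᵀ = -Ω x)
    (hΩclosed : ∀ x i j k, fderiv ℝ (fun y => Ω y j k) x (Pi.single i 1) +
      fderiv ℝ (fun y => Ω y k i) x (Pi.single j 1) +
      fderiv ℝ (fun y => Ω y i j) x (Pi.single k 1) = 0)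
    (hΩtames : ∀ x v, v ≠ 0 → 0 < v ⬝ᵥ Ω x *ᵥ J x *ᵥ v) :
    ∃ η : (Fin 4 → ℝ) → Matrix (Fin 4) (Fin 4) ℝ,
      (∀ i j, ContDiff ℝ ∞ fun x => η x i j) ∧
      (∀ x (m : Fin 4 → ℤ), η (fun i => x i + m i) = η x) ∧
      (∀ x, (η x)ᵀ = -η x) ∧
      (∀ x i j k, fderiv ℝ (fun y => η y j k) x (Pi.single i 1) +
        fderiv ℝ (fun y => η y k i) x (Pi.single j 1) +
        fderiv ℝ (fun y => η y i j) x (Pi.single k 1) = 0) ∧
      (∀ x, (J x)ᵀ * η x * J x = η x) ∧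
      ∀ x v, v ≠ 0 → 0 < v ⬝ᵥ η x *ᵥ J x *ᵥ v :=
  Vale.Agent.P204.bridge Vale.Agent.P204.core J hJsmooth hJperiodic hJsq hJinvariant
    Ω hΩsmooth hΩperiodic hΩskew hΩclosed hΩtames

end Vale.Agent.Results.P204.CircleInvariant
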